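import Vale.Agent.P015.Final

namespace Vale.Agent.Results.P015.LowComplexity

open Filter Vale.Agent.P015

/-- An infinite walk through distinct Gaussian primes with steps of length at most `D` cannot
have a step sequence of low subword complexity: the number of different blocks of `R`
consecutive steps exceeds `R ^ (13 / 10)` for infinitely many `R`. -/
theorem result (D : ℝ) (z : ℕ → GaussianInt) (hz : Function.Injective z)
    (hirr : ∀ t, Irreducible (z t)) (hD : ∀ t, ‖(z (t + 1) : ℂ) - (z t : ℂ)‖ ≤ D) :
    ∃ᶠ R : ℕ in atTop, (R : ℝ) ^ (13 / 10 : ℝ) < cx z R :=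
  main hz hirr hD

end Vale.Agent.Results.P015.LowComplexity
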