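import Vale.Agent.P015B.Final

namespace Vale.Agent.Results.P015.Strip

open Filter Vale.Agent.P015B

theorem result (D : ℝ) (hD : 0 < D) :
    (∃ c : ℝ, 0 < c ∧ ∀ᶠ T : ℕ in atTop,
      ∀ z : ℕ → GaussianInt, (∀ j ≤ T, Irreducible (z j)) → Set.InjOn z (Set.Iic T) →
      (∀ j < T, ‖(z (j + 1) : ℂ) - (z j : ℂ)‖ ≤ D) → ∀ a u : ℂ, ‖u‖ = 1 →
      ∃ j ≤ T, Real.exp (c * Real.log T / Real.log (Real.log T)) <
        Metric.infDist (z j : ℂ) (Set.range fun t : ℝ => a + t * u)) ∧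
    (∃ c : ℝ, 0 < c ∧
      ∀ z : ℕ → GaussianInt, (∀ j, Irreducible (z j)) → Function.Injective z →
      (∀ j, ‖(z (j + 1) : ℂ) - (z j : ℂ)‖ ≤ D) → ∀ a u : ℂ, ‖u‖ = 1 →
      ∃ᶠ j : ℕ in atTop,
        Real.exp (c * Real.log ‖(z j : ℂ)‖ / Real.log (Real.log ‖(z j : ℂ)‖)) <
        Metric.infDist (z j : ℂ) (Set.range fun t : ℝ => a + t * u)) ∧
    (∃ c : ℝ, 0 < c ∧ ∀ᶠ X : ℝ in atTop,
      (({z : {z : GaussianInt // Irreducible z} | ‖(z.1 : ℂ)‖ ≤ X ∧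
        ∃ w, (primeGraph D).Reachable z w ∧ Real.log X ≤ ‖(z.1 : ℂ) - (w.1 : ℂ)‖}.ncard : ℕ) : ℝ) ≤
        X ^ 2 * Real.exp (-(c * Real.log X / Real.log (Real.log X)))) ∧
    (∃ c : ℝ, 0 < c ∧ ∀ᶠ X : ℝ in atTop,
      (({z : {z : GaussianInt // Irreducible z} | ‖(z.1 : ℂ)‖ ≤ X ∧
        ((primeGraph D).connectedComponentMk z).supp.Infinite}.ncard : ℕ) : ℝ) ≤
        X ^ 2 * Real.exp (-(c * Real.log X / Real.log (Real.log X)))) :=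
  ⟨partA hD, partB hD, partC hD, partD hD⟩

end Vale.Agent.Results.P015.Strip
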